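import Vale.Agent.P329.Groups.Transport

/-!
P329, group facts: Burnside's theorem. A transitive group of prime degree is 2-transitive or
consists of affine maps. Elementary proof: the orbit `M` of `1` under the stabiliser of `0` is
closed under multiplication by the multiplier theorem, so `g (x + M) = g x + M`; comparing
coefficients of the polynomial representing `g` then forces degree at most one.
-/

namespace Vale.Agent.P329.Groups

open Finset Polynomial

theorem exists_coords_of_card {α : Type*} [Finite α] {n : ℕ} (hn : Nat.card α = n)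
    {c : Equiv.Perm α} (x₀ : α) (hcyc : ∀ x, ∃ k : ℤ, (c ^ k) x₀ = x) :
    ∃ e : ZMod n ≃ α, ∀ z, e (z + 1) = c (e z) := by
  subst hn
  exact exists_zmod_coords x₀ hcyc

section Poly

variable {p : ℕ} [Fact p.Prime] {M : Finset (ZMod p)}

/-- Power sums of a multiplicatively closed set of nonzero residues vanish below its size. -/
theorem powerSum_eq_zero (hmul : ∀ a ∈ M, ∀ b ∈ M, a * b ∈ M) (h0 : (0 : ZMod p) ∉ M) {i : ℕ}
    (hi : 0 < i) (hlt : i < #M) : ∑ m ∈ M, m ^ i = 0 := by
  obtain ⟨a, ha, ha'⟩ : ∃ a ∈ M, a ^ i ≠ 1 := by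
    by_contra hall
    push Not at hall
    have hsub : M ⊆ nthRootsFinset i (1 : ZMod p) := fun a ha =>
      (mem_nthRootsFinset hi 1).2 (hall a ha)
    have : #(nthRootsFinset i (1 : ZMod p)) ≤ i := by
      rw [nthRootsFinset_def]
      exact (Multiset.toFinset_card_le _).trans (card_nthRoots i _)
    exact absurd ((card_le_card hsub).trans this) (not_le.2 hlt)
  have ha0 : a ≠ 0 := fun h => h0 (h ▸ ha)
  have him : M.image (a * ·) = M :=
    eq_of_subset_of_card_le (image_subset_iff.2 fun b hb => hmul a ha b hb)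
      (by rw [card_image_of_injective _ (mul_right_injective₀ ha0)])
  have h : a ^ i * ∑ m ∈ M, m ^ i = ∑ m ∈ M, m ^ i := by
    conv_rhs => rw [← him, sum_image fun x _ y _ h => mul_right_injective₀ ha0 h]
    rw [mul_sum]
    exact sum_congr rfl fun m _ => (mul_pow a m i).symm
  by_contra hne
  exact ha' ((mul_eq_right₀ hne).1 h)

theorem pow_card_eq_one (hmul : ∀ a ∈ M, ∀ b ∈ M, a * b ∈ M) (h0 : (0 : ZMod p) ∉ M)
    {a : ZMod p} (ha : a ∈ M) : a ^ #M = 1 := by
  have ha0 : a ≠ 0 := fun h => h0 (h ▸ ha)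
  have him : M.image (a * ·) = M :=
    eq_of_subset_of_card_le (image_subset_iff.2 fun b hb => hmul a ha b hb)
      (by rw [card_image_of_injective _ (mul_right_injective₀ ha0)])
  have h : a ^ #M * ∏ m ∈ M, m = ∏ m ∈ M, m := by
    conv_rhs => rw [← him, prod_image fun x _ y _ h => mul_right_injective₀ ha0 h]
    rw [prod_mul_distrib, prod_const]
  exact (mul_eq_right₀ (prod_ne_zero_iff.2 fun m hm e => h0 (e ▸ hm))).1 h

/-- A closed set which is not everything nonzero has at most `(p - 1) / 2` elements. -/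
theorem two_card_le (hmul : ∀ a ∈ M, ∀ b ∈ M, a * b ∈ M) (h0 : (0 : ZMod p) ∉ M) {c : ZMod p}
    (hc0 : c ≠ 0) (hc : c ∉ M) : 2 * #M < p := by
  rcases M.eq_empty_or_nonempty with rfl | ⟨a, ha⟩
  · simp [(Fact.out : p.Prime).pos]
  have hd : Disjoint M (M.image (c * ·)) := disjoint_left.2 fun x hx hx' => by
    obtain ⟨m, hm, rfl⟩ := mem_image.1 hx'
    have hclosed : ∀ k, 0 < k → m ^ k ∈ M := by
      intro k hk
      induction k, hk using Nat.le_induction with
      | base => simpa using hm
      | succ k _ ih => rw [pow_succ]; exact hmul _ ih _ hm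
    have hpos : 0 < #M := card_pos.2 ⟨a, ha⟩
    rcases Nat.eq_or_lt_of_le hpos with h1 | h1
    · have : m = 1 := by simpa [← h1] using pow_card_eq_one hmul h0 hm
      exact hc (by simpa [this] using hx)
    · have := hmul _ hx _ (hclosed (#M - 1) (by omega))
      rw [mul_assoc, mul_pow_sub_one (by omega), pow_card_eq_one hmul h0 hm, mul_one] at this
      exact hc this
  have h := card_le_card (s := M ∪ M.image (c * ·)) (t := univ.erase 0) fun x hx => by
    refine mem_erase.2 ⟨?_, mem_univ x⟩
    rcases mem_union.1 hx with hx | hx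
    · exact fun e => h0 (e ▸ hx)
    · obtain ⟨m, hm, rfl⟩ := mem_image.1 hx
      exact mul_ne_zero hc0 fun e => h0 (e ▸ hm)
  rw [card_union_of_disjoint hd, card_image_of_injective _ (mul_right_injective₀ hc0),
    card_erase_of_mem (mem_univ _), card_univ, ZMod.card] at h
  have := (Fact.out : p.Prime).pos
  omega

/-- If averaging `f` over the shifts by `M` reproduces `f`, then `deg f < #M`. -/
theorem natDegree_lt_card (hmul : ∀ a ∈ M, ∀ b ∈ M, a * b ∈ M) (h0 : (0 : ZMod p) ∉ M)
    (hr : 0 < #M) (hrp : #M < p) {f : (ZMod p)[X]} (hf : f.natDegree < p)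
    (h : ∀ x, ∑ m ∈ M, f.eval (x + m) = (#M : ZMod p) * f.eval x) : f.natDegree < #M := by
  by_contra hle
  rw [not_lt] at hle
  set r := #M with hrdef
  set d := f.natDegree with hd
  set e := d - r with he
  have hF : ∑ m ∈ M, f.comp (X + C m) - C (r : ZMod p) * f = 0 := by
    refine eq_zero_of_natDegree_lt_card_of_eval_eq_zero' _ univ (fun x _ => ?_) ?_
    · simp [eval_finsetSum, eval_comp, h x]
    · rw [card_univ, ZMod.card]
      refine lt_of_le_of_lt ((natDegree_sub_le _ _).trans (max_le ?_ ?_)) hf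
      · refine natDegree_sum_le_of_forall_le _ _ fun m _ => natDegree_comp_le.trans ?_
        simp [hd]
      · exact natDegree_C_mul_le _ _
  have hc := congrArg (coeff · e) hF
  have key : (∑ m ∈ M, f.comp (X + C m)).coeff e
      = ∑ i ∈ range (d + 1), f.coeff i * ((i.choose e : ZMod p) * ∑ m ∈ M, m ^ (i - e)) := by
    rw [finsetSum_coeff]
    simp_rw [mul_sum]
    rw [sum_comm (s := range (d + 1))]
    refine sum_congr rfl fun m _ => ?_
    rw [comp_eq_sum_left, sum_over_range _ (fun _ => by simp), finsetSum_coeff]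
    refine sum_congr rfl fun i _ => ?_
    rw [coeff_C_mul, coeff_X_add_C_pow]
    ring
  have hsum : ∑ i ∈ range (d + 1), f.coeff i * ((i.choose e : ZMod p) * ∑ m ∈ M, m ^ (i - e))
      = f.coeff e * r + f.coeff d * ((d.choose e : ZMod p) * r) := by
    rw [sum_eq_add e d (by omega)]
    · congr 2
      · simp [hrdef]
      · have : d - e = r := by omega
        rw [this, sum_congr rfl fun m hm => pow_card_eq_one hmul h0 hm]
        simp [hrdef]
    · intro i hi hne
      rw [mem_range] at hi
      rcases lt_or_ge i e with hlt | hge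
      · simp [Nat.choose_eq_zero_of_lt hlt]
      · rw [powerSum_eq_zero hmul h0 (by omega) (by omega), mul_zero, mul_zero]
    · exact fun hn => absurd (mem_range.2 (by omega)) hn
    · exact fun hn => absurd (mem_range.2 (by omega)) hn
  rw [coeff_sub, key, hsum, coeff_C_mul, coeff_zero] at hc
  have hzero : f.coeff d * ((d.choose e : ZMod p) * r) = 0 := by linear_combination hc
  have hne : f ≠ 0 := fun e0 => by simp [hd, e0] at hle; omega
  refine mul_ne_zero (leadingCoeff_ne_zero.2 hne) (mul_ne_zero ?_ ?_) hzero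
  · rw [Ne, ZMod.natCast_eq_zero_iff]
    exact fun hdvd => absurd ((Fact.out : p.Prime).dvd_factorial.1 (hdvd.trans
      ⟨e.factorial * (d - e).factorial, by
        rw [← mul_assoc, Nat.choose_mul_factorial_mul_factorial (by omega)]⟩)) (by omega)
  · rw [Ne, ZMod.natCast_eq_zero_iff]
    exact fun hdvd => absurd (Nat.le_of_dvd hr hdvd) (by omega)

/-- A map with `π (x + M) = π x + M` for a proper multiplicative subgroup `M` is affine. -/
theorem affine_of_map_add (hmul : ∀ a ∈ M, ∀ b ∈ M, a * b ∈ M) (h0 : (0 : ZMod p) ∉ M)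
    (h1 : (1 : ZMod p) ∈ M) {c : ZMod p} (hc0 : c ≠ 0) (hc : c ∉ M) {π : ZMod p → ZMod p}
    (hinj : Function.Injective π) (hπ : ∀ x, ∀ m ∈ M, π (x + m) - π x ∈ M) :
    ∃ a b, a ≠ 0 ∧ ∀ x, π x = a * x + b := by
  set f := Lagrange.interpolate (univ : Finset (ZMod p)) id π with hfdef
  have hfe : ∀ x, f.eval x = π x := fun x =>
    Lagrange.eval_interpolate_at_node (v := id) π Function.injective_id.injOn (mem_univ x)
  have hfd : f.natDegree < p := by
    by_cases hf0 : f = 0
    · simp [hf0, (Fact.out : p.Prime).pos]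
    · refine (natDegree_lt_iff_degree_lt hf0).2 ?_
      have := Lagrange.degree_interpolate_lt (r := π) (v := id) (s := (univ : Finset (ZMod p)))
        Function.injective_id.injOn
      rwa [card_univ, ZMod.card] at this
  have h2 := two_card_le hmul h0 hc0 hc
  have hr : 0 < #M := card_pos.2 ⟨1, h1⟩
  -- the shifts by `M` permute the values
  have hperm : ∀ x (F : ZMod p → ZMod p),
      ∑ m ∈ M, F (π (x + m)) = ∑ m ∈ M, F (π x + m) := by
    intro x F
    have hi : Set.InjOn (fun m => π (x + m) - π x) M := fun a _ b _ h => by simpa [hinj.eq_iff] using h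
    have him : M.image (fun m => π (x + m) - π x) = M :=
      eq_of_subset_of_card_le (image_subset_iff.2 (hπ x)) (by rw [card_image_of_injOn hi])
    conv_rhs => rw [← him, sum_image hi]
    simp
  have hpow : ∀ j, j < #M → ∀ x,
      ∑ m ∈ M, π (x + m) ^ j = (#M : ZMod p) * π x ^ j := by
    intro j hj x
    rw [hperm x (· ^ j)]
    simp_rw [add_pow]
    rw [sum_comm, sum_range_succ, sum_eq_zero fun i hi => ?_]
    · simp [mul_comm]
    · rw [mem_range] at hi
      rw [← sum_mul, ← mul_sum, powerSum_eq_zero hmul h0 (i := j - i) (by omega) (by omega),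
        mul_zero, zero_mul]
  have hlin : f.natDegree ≤ 1 := by
    rcases Nat.lt_or_ge 1 #M with hr1 | hr1
    · have hd := natDegree_lt_card hmul h0 hr (by omega) hfd fun x => by
        simpa [hfe] using hpow 1 hr1 x
      by_contra hd1
      rw [not_le] at hd1
      set d := f.natDegree with hd'
      set j := (#M + d - 1) / d with hj
      have hjd : j * d < #M + d := by
        have := Nat.div_mul_le_self (#M + d - 1) d
        rw [← hj] at this
        omega
      have hjr : #M ≤ j * d := by
        have := Nat.lt_div_mul_add (a := #M + d - 1) (show 0 < d by omega)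
        rw [← hj] at this
        omega
      have hjlt : j < #M := by
        have : j * 2 ≤ j * d := Nat.mul_le_mul_left j hd1
        omega
      have hlt := natDegree_lt_card hmul h0 hr (by omega) (f := f ^ j)
        (by rw [natDegree_pow, ← hd']; omega) fun x => by simpa [hfe] using hpow j hjlt x
      rw [natDegree_pow, ← hd'] at hlt
      omega
    · -- `M = {1}`
      have hM : M = {1} := (eq_of_subset_of_card_le (singleton_subset_iff.2 h1) hr1).symm
      have hstep : ∀ x, π (x + 1) = π x + 1 := fun x => by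
        have := hπ x 1 h1
        rw [hM, mem_singleton] at this
        linear_combination this
      have hlinfun : ∀ n : ℕ, π n = π 0 + n := fun n => by
        induction n with
        | zero => simp
        | succ n ih => push_cast; rw [hstep, ih]; ring
      have he : f = X + C (π 0) := by
        refine sub_eq_zero.1 (eq_zero_of_natDegree_lt_card_of_eval_eq_zero' _ univ (fun x _ => ?_) ?_)
        · have := hlinfun x.val
          rw [ZMod.natCast_zmod_val] at this
          simp [hfe, this, add_comm]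
        · rw [card_univ, ZMod.card]
          exact lt_of_le_of_lt ((natDegree_sub_le _ _).trans (max_le_max le_rfl
            (natDegree_X_add_C _).le)) (max_lt hfd (Fact.out : p.Prime).one_lt)
      simp [he]
  obtain ⟨a, b, hab⟩ := exists_eq_X_add_C_of_natDegree_le_one hlin
  refine ⟨a, b, fun ha => ?_, fun x => by simp [← hfe x, hab]⟩
  have h01 : π 0 = π 1 := by simp [← hfe, hab, ha]
  exact zero_ne_one (hinj h01)

end Poly

variable {p : ℕ} [Fact p.Prime] {G : Subgroup (Equiv.Perm (ZMod p))}

/-- **Burnside's theorem** on `ZMod p`. -/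
theorem burnside_zmod (hT : HasTranslations G)
    (h2 : ¬ MulAction.IsMultiplyPretransitive G (ZMod p) 2) {g : Equiv.Perm (ZMod p)} (hg : g ∈ G) :
    ∃ a b, a ≠ 0 ∧ ∀ x, g x = a * x + b := by
  classical
  set M : Finset (ZMod p) := {m | basicSet G 1 m} with hMdef
  have hM : ∀ {m}, m ∈ M ↔ basicSet G 1 m := by simp [hMdef]
  have hscale : ∀ {a : ZMod p}, a ≠ 0 → ∀ {y z : ZMod p},
      basicSet G y z → basicSet G (a * y) (a * z) := by
    intro a ha y z hyz
    have hk : a.val.Coprime (Fintype.card (ZMod p)) := by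
      rw [ZMod.card]
      exact ((Nat.Prime.coprime_iff_not_dvd Fact.out).2 fun hd => ha
        ((ZMod.natCast_zmod_val a).symm.trans ((ZMod.natCast_eq_zero_iff _ _).2 hd))).symm
    have := basicSet_le ((sinv_basicSet hT (a.val • y)).comp_nsmul hk) (mem_basicSet_self _) hyz
    simpa [nsmul_eq_mul] using this
  have h0 : (0 : ZMod p) ∉ M := fun h => by
    obtain ⟨k, -, hk0, hk⟩ := hM.1 h
    exact one_ne_zero (k.injective (hk.trans hk0.symm))
  have hmul : ∀ a ∈ M, ∀ b ∈ M, a * b ∈ M := fun a ha b hb => hM.2 <| by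
    have := hscale (fun e => h0 (e ▸ ha)) (hM.1 hb)
    rw [mul_one] at this
    exact basicSet_trans (hM.1 ha) this
  obtain ⟨c, hc0, hc⟩ : ∃ c, c ≠ 0 ∧ c ∉ M := by
    by_contra hall
    push Not at hall
    refine h2 (MulAction.is_two_pretransitive_iff.2 fun {a b a' b'} hab hab' => ?_)
    obtain ⟨k, hk, hk0, hkx⟩ := basicSet_trans
      (basicSet_symm (hM.1 (hall _ (sub_ne_zero.2 hab.symm))))
      (hM.1 (hall _ (sub_ne_zero.2 hab'.symm)))
    refine ⟨⟨Equiv.addRight a' * k * Equiv.addRight (-a),
      G.mul_mem (G.mul_mem (hT a') hk) (hT _)⟩, ?_, ?_⟩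
    · simp [Subgroup.mk_smul, hk0]
    · simp [Subgroup.mk_smul, ← sub_eq_add_neg, hkx]
  refine affine_of_map_add hmul h0 (hM.2 (mem_basicSet_self 1)) hc0 hc g.injective fun x m hm =>
    hM.2 ?_
  rw [sinv_basicSet hT 1 g hg x (x + m), add_sub_cancel_left]
  exact hM.1 hm

/-- **Burnside's theorem.** A transitive group of prime degree is 2-transitive, or in suitable
coordinates all its elements are affine. -/
theorem burnside {α : Type*} [Finite α] {G : Subgroup (Equiv.Perm α)}
    [MulAction.IsPretransitive G α] (hcard : Nat.card α = p) :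
    MulAction.IsMultiplyPretransitive G α 2 ∨
      ∃ e : ZMod p ≃ α, (∃ c ∈ G, ∀ z, c (e z) = e (z + 1)) ∧
        ∀ g ∈ G, ∃ a b, a ≠ 0 ∧ ∀ x, g (e x) = e (a * x + b) := by
  classical
  have : Fintype α := Fintype.ofFinite α
  have : Nonempty α := Nat.card_ne_zero.1 (by rw [hcard]; exact NeZero.ne p) |>.1
  obtain ⟨x₀⟩ := ‹Nonempty α›
  have hdvd : p ∣ Nat.card G := by
    rw [← hcard, ← MulAction.index_stabilizer_of_transitive G x₀]
    exact Subgroup.index_dvd_card _
  obtain ⟨c, hc⟩ := exists_prime_orderOf_dvd_card' p hdvd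
  have hcF : Fintype.card α = p := by rw [← Nat.card_eq_fintype_card, hcard]
  have hord : orderOf (c : Equiv.Perm α) = Fintype.card α := by rw [Subgroup.orderOf_coe, hc, hcF]
  have hcyc : (c : Equiv.Perm α).IsCycle :=
    Equiv.Perm.isCycle_of_prime_order'' (hcF ▸ Fact.out) hord
  have hsupp : (c : Equiv.Perm α).support = univ :=
    eq_univ_of_card _ (hcyc.orderOf.symm.trans hord)
  have hall : ∀ x y : α, ∃ k : ℤ, ((c : Equiv.Perm α) ^ k) x = y := fun x y =>
    hcyc.exists_zpow_eq (Equiv.Perm.mem_support.1 (hsupp ▸ mem_univ x))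
      (Equiv.Perm.mem_support.1 (hsupp ▸ mem_univ y))
  obtain ⟨e, he⟩ : ∃ e : ZMod p ≃ α, ∀ z, e (z + 1) = (c : Equiv.Perm α) (e z) :=
    exists_coords_of_card hcard x₀ (hall x₀)
  by_cases h2 : MulAction.IsMultiplyPretransitive G α 2
  · exact Or.inl h2
  refine Or.inr ⟨e, ⟨c, c.2, fun z => (he z).symm⟩, fun g hg => ?_⟩
  set G' := G.map e.symm.permCongrHom.toMonoidHom
  have hT : HasTranslations G' := fun x => by
    have hone : Equiv.addRight (1 : ZMod p) ∈ G' :=
      ⟨c, c.2, Equiv.ext fun z => by simp [← he]⟩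
    have := G'.pow_mem hone x.val
    convert this using 1
    ext z
    simp
  have h2' : ¬ MulAction.IsMultiplyPretransitive G' (ZMod p) 2 := fun h => h2 <| by
    refine MulAction.is_two_pretransitive_iff.2 fun {a b a' b'} hab hab' => ?_
    obtain ⟨⟨_, k, hk, rfl⟩, hka, hkb⟩ := MulAction.is_two_pretransitive_iff.1 h
      (e.symm.injective.ne hab) (e.symm.injective.ne hab')
    exact ⟨⟨k, hk⟩, by simpa [Subgroup.smul_def] using hka,
      by simpa [Subgroup.smul_def] using hkb⟩
  obtain ⟨a, b, ha, hab⟩ := burnside_zmod hT h2' (g := e.symm.permCongrHom g) ⟨g, hg, rfl⟩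
  refine ⟨a, b, ha, fun x => ?_⟩
  have := congrArg e (hab x)
  simpa using this

end Vale.Agent.P329.Groups
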