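import Mathlib

/-!
P329, group facts: Schur rings without the module language. For a group `G` of permutations of a
finite abelian group `A`, a function on `A` is `SInv` if its difference kernel `f (v - u)` is
invariant under `G`. When `G` contains the translations these are exactly the functions which are
constant on the orbits of the stabiliser of `0`. The class is closed under convolution; the
Frobenius map of `(ZMod p)[A]` then gives Schur's multiplier theorem.
-/

namespace Vale.Agent.P329.Groups

open Finset

variable {A : Type*} [AddCommGroup A]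

/-- The difference kernel of `f` is invariant under `G`. -/
def SInv {β : Type*} (G : Subgroup (Equiv.Perm A)) (f : A → β) : Prop :=
  ∀ g ∈ G, ∀ u v : A, f (g v - g u) = f (v - u)

variable {G : Subgroup (Equiv.Perm A)}

namespace SInv

variable {β γ δ : Type*}

theorem const (b : β) : SInv G fun _ : A => b := fun _ _ _ _ => rfl

theorem comp {f : A → β} (hf : SInv G f) (φ : β → γ) : SInv G fun x => φ (f x) :=
  fun g hg u v => congrArg φ (hf g hg u v)

theorem map₂ {f : A → β} {f' : A → γ} (hf : SInv G f) (hf' : SInv G f') (φ : β → γ → δ) :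
    SInv G fun x => φ (f x) (f' x) :=
  fun g hg u v => by simp only [hf g hg u v, hf' g hg u v]

theorem neg {f : A → β} (hf : SInv G f) : SInv G fun x => f (-x) := fun g hg u v => by
  simp only [neg_sub]
  exact hf g hg v u

/-- The indicator of zero is invariant. -/
theorem eq_zero : SInv G fun x : A => x = 0 := fun g _ u v =>
  propext ⟨fun h => sub_eq_zero.2 (g.injective (sub_eq_zero.1 h)),
    fun h => by rw [sub_eq_zero.1 h, sub_self]⟩

/-- Invariant functions are constant on the orbits of the stabiliser of `0`. -/
theorem apply_eq {f : A → β} (hf : SInv G f) {g : Equiv.Perm A} (hg : g ∈ G) (h0 : g 0 = 0)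
    (x : A) : f (g x) = f x := by
  simpa [h0] using hf g hg 0 x

/-- The subgroup generated by an invariant set is invariant. -/
theorem closure {S : A → Prop} (hS : SInv G S) :
    SInv G fun x => x ∈ AddSubgroup.closure {y | S y} := by
  have key : ∀ g ∈ G, ∀ d ∈ AddSubgroup.closure {y | S y}, ∀ u,
      g (u + d) - g u ∈ AddSubgroup.closure {y | S y} := by
    intro g hg d hd
    refine AddSubgroup.closure_induction (fun d hd u => ?_) (fun u => by simp)
      (fun a b _ _ ha hb u => ?_) (fun a _ ha u => ?_) hd
    · refine AddSubgroup.subset_closure ?_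
      show S (g (u + d) - g u)
      rw [hS g hg u (u + d), add_sub_cancel_left]
      exact hd
    · have := add_mem (ha u) (hb (u + a))
      rw [add_assoc] at this
      simpa using this
    · have := neg_mem (ha (u + -a))
      simpa using this
  intro g hg u v
  refine propext ⟨fun h => ?_, fun h => ?_⟩
  · have := key g⁻¹ (G.inv_mem hg) _ h (g u)
    simpa using this
  · have := key g hg _ h u
    simpa using this

variable [Fintype A]

/-- Invariant functions are closed under convolution. -/
theorem conv {R : Type*} [NonUnitalNonAssocSemiring R] {f f' : A → R} (hf : SInv G f)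
    (hf' : SInv G f') : SInv G fun x => ∑ y, f y * f' (x - y) := by
  intro g hg u v
  show ∑ y, f y * f' (g v - g u - y) = ∑ y, f y * f' (v - u - y)
  rw [← Equiv.sum_comp (g.trans (Equiv.subRight (g u))),
    ← Equiv.sum_comp (Equiv.subRight u) (fun y => f y * f' (v - u - y))]
  refine Finset.sum_congr rfl fun w _ => ?_
  simp only [Equiv.trans_apply, Equiv.subRight_apply, sub_sub_sub_cancel_right]
  rw [hf g hg u w, hf' g hg w v]

theorem algebra_mul [DecidableEq A] {R : Type*} [Semiring R] {F F' : AddMonoidAlgebra R A}
    (hF : SInv G fun x => F.coeff x) (hF' : SInv G fun x => F'.coeff x) :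
    SInv G fun x => (F * F').coeff x := by
  have e : (fun x => (F * F').coeff x) = fun x => ∑ y, F.coeff y * F'.coeff (x - y) := by
    funext x
    rw [AddMonoidAlgebra.coeff_mul_antidiag F F' x (univ.image fun y => (y, x - y))]
    · rw [Finset.sum_image fun a _ b _ h => congrArg Prod.fst h]
    · intro q
      simp only [mem_image, mem_univ, true_and, Prod.ext_iff]
      constructor
      · rintro ⟨y, hy1, hy2⟩
        rw [← hy1, ← hy2, add_sub_cancel]
      · intro h; exact ⟨q.1, rfl, by rw [← h, add_sub_cancel_left]⟩
  rw [e]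
  exact hF.conv hF'

theorem algebra_pow [DecidableEq A] {R : Type*} [Semiring R] {F : AddMonoidAlgebra R A}
    (hF : SInv G fun x => F.coeff x) : ∀ k : ℕ, SInv G fun x => (F ^ k).coeff x
  | 0 => by
    classical
    have e : (fun x => ((F ^ 0).coeff x)) = fun x : A => if x = 0 then (1 : R) else 0 := by
      funext x
      simp [AddMonoidAlgebra.one_def, Finsupp.single_apply, eq_comm]
    rw [e]
    exact fun g hg u v => if_congr (Iff.of_eq (eq_zero g hg u v)) rfl rfl
  | k + 1 => by
    simp only [pow_succ]
    exact (algebra_pow hF k).algebra_mul hF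

/-- **Frobenius.** The image of an invariant `ZMod p` valued function under multiplication by `p`
is invariant. -/
theorem frobenius [DecidableEq A] (p : ℕ) [Fact p.Prime] {f : A → ZMod p} (hf : SInv G f) :
    SInv G fun x => ∑ y, if p • y = x then f y else 0 := by
  have : CharP (AddMonoidAlgebra (ZMod p) A) p :=
    charP_of_injective_algebraMap' (ZMod p) p
  set F : AddMonoidAlgebra (ZMod p) A := ∑ y, AddMonoidAlgebra.single y (f y) with hF
  have hFc : (fun x => F.coeff x) = f := by
    funext x
    simp [hF, AddMonoidAlgebra.coeff_sum, Finsupp.single_apply]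
  have h := algebra_pow (F := F) (by rw [hFc]; exact hf) p
  have e : (fun x => (F ^ p).coeff x) = fun x => ∑ y, if p • y = x then f y else 0 := by
    funext x
    rw [hF, sum_pow_char]
    simp [AddMonoidAlgebra.coeff_sum, AddMonoidAlgebra.single_pow, Finsupp.single_apply,
      ZMod.pow_card]
  rwa [e] at h

theorem nsmul_bijective {k : ℕ} (hk : k.Coprime (Fintype.card A)) :
    Function.Bijective fun x : A => k • x := by
  refine Finite.injective_iff_bijective.1 fun a b h => sub_eq_zero.1 ?_
  have h1 : k • (a - b) = 0 := by rw [nsmul_sub, h, sub_self]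
  exact AddMonoid.addOrderOf_eq_one_iff.1 (Nat.eq_one_of_dvd_coprimes hk
    (addOrderOf_dvd_of_nsmul_eq_zero h1) addOrderOf_dvd_card)

/-- The prime step of the multiplier theorem. -/
theorem of_prime_nsmul {p : ℕ} (hp : p.Prime) (hk : p.Coprime (Fintype.card A)) {f : A → β}
    (hf : SInv G f) {f' : A → β} (h : ∀ y, f' (p • y) = f y) : SInv G f' := by
  classical
  have := Fact.mk hp
  intro g hg u v
  obtain ⟨d, hd : p • d = v - u⟩ := (nsmul_bijective hk).2 (v - u)
  obtain ⟨d', hd' : p • d' = g v - g u⟩ := (nsmul_bijective hk).2 (g v - g u)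
  rw [← hd, ← hd', h, h]
  have h1 := (hf.comp fun b => if b = f d then (1 : ZMod p) else 0).frobenius p g hg u v
  have e : ∀ (F : A → ZMod p) (z : A), (∑ y, if p • y = p • z then F y else 0) = F z :=
    fun F z => by simp [(nsmul_bijective hk).1.eq_iff]
  simp only [← hd, ← hd'] at h1
  rw [e, e, if_pos rfl] at h1
  by_contra hne
  rw [if_neg hne] at h1
  exact one_ne_zero h1.symm

theorem of_nsmul {k : ℕ} (hk : k.Coprime (Fintype.card A)) {f : A → β}
    (hf : SInv G f) {f' : A → β} (h : ∀ y, f' (k • y) = f y) : SInv G f' := by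
  induction k using Nat.recOnMul generalizing f f' with
  | zero =>
    have : Subsingleton A :=
      Fintype.card_le_one_iff_subsingleton.1 (by simp [Nat.coprime_zero_left] at hk; omega)
    intro g _ u v
    rw [Subsingleton.elim (g v - g u) (v - u)]
  | one =>
    have : f' = f := funext fun y => by simpa using h y
    rwa [this]
  | prime p hp => exact of_prime_nsmul hp hk hf h
  | mul a b iha ihb =>
    rw [Nat.coprime_mul_iff_left] at hk
    refine ihb hk.2 (iha hk.1 hf (f' := fun z => f' (b • z)) fun y => ?_) fun y => rfl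
    rw [← mul_nsmul]
    exact h y

/-- **Schur's multiplier theorem.** -/
theorem comp_nsmul {k : ℕ} (hk : k.Coprime (Fintype.card A)) {f : A → β} (hf : SInv G f) :
    SInv G fun x => f (k • x) := by
  have hN : 0 < Fintype.card A := Fintype.card_pos
  have ht := Nat.totient_pos.2 hN
  refine of_nsmul (k := k ^ (Nat.totient (Fintype.card A) - 1)) (hk.pow_left _) hf fun y => ?_
  show f _ = f y
  rw [← mul_nsmul, ← pow_succ, Nat.sub_add_cancel ht, ← mod_card_nsmul, Nat.ModEq.pow_totient hk,
    mod_card_nsmul, one_nsmul]

open Classical in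
/-- The autocorrelation of an invariant set is invariant. -/
theorem corr {X : A → Prop} (hX : SInv G X) :
    SInv G fun h => #({y | X y ∧ X (y - h)} : Finset A) := by
  have := (hX.comp fun P => if P then 1 else 0).conv (hX.neg.comp fun P => if P then 1 else 0)
    (R := ℕ)
  refine (funext fun h => ?_ : (fun h => #({y | X y ∧ X (y - h)} : Finset A)) = _) ▸ this
  simp only [card_filter, neg_sub]
  refine sum_congr rfl fun x _ => ?_
  split_ifs <;> simp_all

/-- The radical (translation stabiliser) of an invariant set is invariant. -/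
theorem radical {X : A → Prop} (hX : SInv G X) : SInv G fun h => ∀ y, X y → X (y - h) := by
  classical
  have e : (fun h => ∀ y, X y → X (y - h)) =
      fun h => #({y | X y ∧ X (y - h)} : Finset A) = #({y | X y} : Finset A) := by
    funext h
    refine propext ⟨fun hh => ?_, fun hh y hy => ?_⟩
    · exact congrArg card (filter_congr fun y _ => ⟨fun a => a.1, fun a => ⟨a, hh y a⟩⟩)
    · have := eq_of_subset_of_card_le
        (fun y hy => by simp only [mem_filter, mem_univ, true_and] at hy ⊢; exact hy.1) hh.ge
      exact ((Finset.mem_filter.1 (this.ge (mem_filter.2 ⟨mem_univ y, hy⟩))).2).2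
  rw [e]
  exact hX.corr.comp fun m => m = _

end SInv

/-- `G` contains the translations. -/
def HasTranslations (G : Subgroup (Equiv.Perm A)) : Prop := ∀ a : A, Equiv.addRight a ∈ G

/-- The orbit of `x` under the stabiliser of `0`: a basic set of the Schur ring. -/
def basicSet (G : Subgroup (Equiv.Perm A)) (x : A) : A → Prop :=
  fun y => ∃ g ∈ G, g 0 = 0 ∧ g x = y

theorem mem_basicSet_self (x : A) : basicSet G x x := ⟨1, G.one_mem, rfl, rfl⟩

/-- With translations, basic sets are invariant. -/
theorem sinv_basicSet (hT : HasTranslations G) (x : A) : SInv G (basicSet G x) := by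
  have key : ∀ g ∈ G, ∀ u v : A, basicSet G x (v - u) → basicSet G x (g v - g u) := by
    rintro g hg u v ⟨k, hk, hk0, hkx⟩
    refine ⟨Equiv.addRight (-g u) * g * Equiv.addRight u * k,
      G.mul_mem (G.mul_mem (G.mul_mem (hT _) hg) (hT _)) hk, ?_, ?_⟩
    · simp [hk0]
    · simp [hkx, sub_eq_add_neg]
  intro g hg u v
  refine propext ⟨fun h => ?_, key g hg u v⟩
  simpa using key g⁻¹ (G.inv_mem hg) (g u) (g v) h

/-- A basic set inside an invariant set. -/
theorem basicSet_le {X : A → Prop} (hX : SInv G X) {x y : A} (hx : X x)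
    (hy : basicSet G x y) : X y := by
  obtain ⟨g, hg, h0, rfl⟩ := hy
  rwa [hX.apply_eq hg h0 x]

theorem basicSet_symm {x y : A} (h : basicSet G x y) : basicSet G y x := by
  obtain ⟨g, hg, h0, hgx⟩ := h
  refine ⟨g⁻¹, G.inv_mem hg, ?_, ?_⟩
  · exact g.symm_apply_eq.2 h0.symm
  · exact g.symm_apply_eq.2 hgx.symm

theorem basicSet_trans {x y z : A} (h : basicSet G x y) (h' : basicSet G y z) :
    basicSet G x z := by
  obtain ⟨g, hg, h0, rfl⟩ := h
  obtain ⟨g', hg', h0', rfl⟩ := h'
  exact ⟨g' * g, G.mul_mem hg' hg, by simp [h0, h0'], by simp⟩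

variable [Fintype A]

/-- **Multiplier theorem for basic sets.** -/
theorem basicSet_nsmul (hT : HasTranslations G) {k : ℕ} (hk : k.Coprime (Fintype.card A))
    {x y : A} : basicSet G (k • x) (k • y) ↔ basicSet G x y := by
  have mono : ∀ {l : ℕ}, l.Coprime (Fintype.card A) → ∀ {a b : A}, basicSet G a b →
      basicSet G (l • a) (l • b) := fun {l} hl {a b} h =>
    basicSet_le ((sinv_basicSet hT (l • a)).comp_nsmul hl) (mem_basicSet_self _) h
  refine ⟨fun h => ?_, mono hk⟩
  have ht := Nat.totient_pos.2 (Fintype.card_pos (α := A))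
  have inv : ∀ a : A, k ^ (Nat.totient (Fintype.card A) - 1) • k • a = a := fun a => by
    rw [← mul_nsmul, ← pow_succ', Nat.sub_add_cancel ht, ← mod_card_nsmul,
      Nat.ModEq.pow_totient hk, mod_card_nsmul, one_nsmul]
  have := mono (hk.pow_left (Nat.totient (Fintype.card A) - 1)) h
  rwa [inv, inv] at this

/-- A multiplier maps each basic set onto a basic set. -/
theorem basicSet_image_nsmul (hT : HasTranslations G) {k : ℕ} (hk : k.Coprime (Fintype.card A))
    {x z : A} : basicSet G (k • x) z ↔ ∃ y, basicSet G x y ∧ k • y = z := by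
  constructor
  · intro h
    obtain ⟨y, rfl⟩ := (SInv.nsmul_bijective hk).2 z
    exact ⟨y, (basicSet_nsmul hT hk).1 h, rfl⟩
  · rintro ⟨y, hy, rfl⟩
    exact (basicSet_nsmul hT hk).2 hy

end Vale.Agent.P329.Groups
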