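import Vale.Agent.P329.Groups.SRing

/-!
P329, group facts: Schur's theorem. A primitive group of degree `n`, `n` composite, containing a
regular cyclic subgroup is 2-transitive. Elementary proof: by the Frobenius map every invariant set
avoiding `0` meets the subgroup of order `p`, and a count of the autocorrelation of a basic set
then leaves room for only one basic set besides `0`.
-/

namespace Vale.Agent.P329.Groups

open Finset MulAction
open scoped Pointwise

section General

variable {A : Type*} [AddCommGroup A] [Finite A] {G : Subgroup (Equiv.Perm A)}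

/-- An invariant subgroup of a primitive group is trivial. -/
theorem invariant_subgroup_trivial [IsPreprimitive G A] {U : AddSubgroup A}
    (hU : SInv G fun x => x ∈ U) : U = ⊥ ∨ U = ⊤ := by
  have hB : IsBlock G (U : Set A) := by
    refine isBlock_iff_smul_eq_of_mem.2 fun g a ha hga => ?_
    refine Set.eq_of_subset_of_ncard_le ?_ ?_ (Set.toFinite _)
    · rintro _ ⟨w, hw, rfl⟩
      have h1 : (g : Equiv.Perm A) w - (g : Equiv.Perm A) a ∈ U := by
        have := hU g g.2 a w
        exact (Eq.mpr this (U.sub_mem hw ha))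
      have h2 := U.add_mem h1 hga
      rwa [show (g • a : A) = (g : Equiv.Perm A) a from rfl, sub_add_cancel] at h2
    · rw [Set.ncard_smul_set]
  rcases IsPreprimitive.isTrivialBlock_of_isBlock (G := G) hB with h | h
  · exact Or.inl (eq_bot_iff.2 fun x hx => h hx U.zero_mem)
  · exact Or.inr (SetLike.coe_injective (h.trans AddSubgroup.coe_top.symm))

end General

variable {n : ℕ} [NeZero n] {p : ℕ}

/-- The kernel of multiplication by a prime divisor `p` has `p` elements. -/
theorem card_torsion (hp : p.Prime) (hpn : p ∣ n) :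
    #({x | p • x = 0} : Finset (ZMod n)) = p := by
  obtain ⟨q, rfl⟩ := hpn
  have hq : 0 < q := Nat.pos_of_ne_zero fun h => NeZero.ne (p * q) (by rw [h, mul_zero])
  have e : ({x | p • x = 0} : Finset (ZMod (p * q))) =
      (range p).image fun j => ((j * q : ℕ) : ZMod (p * q)) := by
    ext x
    simp only [mem_filter, mem_univ, true_and, mem_image, mem_range]
    constructor
    · intro h
      rw [← ZMod.natCast_zmod_val x, nsmul_eq_mul, ← Nat.cast_mul,
        ZMod.natCast_eq_zero_iff] at h
      obtain ⟨j, hj⟩ := Nat.dvd_of_mul_dvd_mul_left hp.pos h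
      refine ⟨j, ?_, ?_⟩
      · have := ZMod.val_lt x
        rw [hj, mul_comm q] at this
        exact Nat.lt_of_mul_lt_mul_right this
      · rw [Nat.mul_comm j q, ← hj]
        exact ZMod.natCast_zmod_val x
    · rintro ⟨j, -, rfl⟩
      rw [nsmul_eq_mul, ← Nat.cast_mul, ZMod.natCast_eq_zero_iff]
      exact ⟨j, by ring⟩
  rw [e, card_image_of_injOn, card_range]
  intro a ha b hb h
  have := (ZMod.natCast_eq_natCast_iff' _ _ _).1 h
  rw [Nat.mod_eq_of_lt (Nat.mul_lt_mul_of_pos_right (mem_range.1 ha) hq),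
    Nat.mod_eq_of_lt (Nat.mul_lt_mul_of_pos_right (mem_range.1 hb) hq)] at this
  exact Nat.eq_of_mul_eq_mul_right hq this

/-- Multipliers prime to `n` are transitive on the elements of order `p`. -/
theorem exists_coprime_nsmul (hp : p.Prime) (hpn : p ∣ n) {a b : ZMod n} (ha : p • a = 0)
    (ha0 : a ≠ 0) (hb : p • b = 0) (hb0 : b ≠ 0) : ∃ k : ℕ, k.Coprime n ∧ k • a = b := by
  obtain ⟨q, rfl⟩ := hpn
  have := Fact.mk hp
  have rep : ∀ x : ZMod (p * q), p • x = 0 → x ≠ 0 →
      ∃ i : ℕ, x = ((i * q : ℕ) : ZMod (p * q)) ∧ (i : ZMod p) ≠ 0 := by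
    intro x hx hx0
    rw [← ZMod.natCast_zmod_val x, nsmul_eq_mul, ← Nat.cast_mul, ZMod.natCast_eq_zero_iff] at hx
    obtain ⟨i, hi⟩ := Nat.dvd_of_mul_dvd_mul_left hp.pos hx
    refine ⟨i, ?_, fun h => hx0 ?_⟩
    · rw [Nat.mul_comm i q, ← hi]
      exact (ZMod.natCast_zmod_val x).symm
    rw [ZMod.natCast_eq_zero_iff] at h
    obtain ⟨j, rfl⟩ := h
    rw [← ZMod.natCast_zmod_val x, hi, ZMod.natCast_eq_zero_iff]
    exact ⟨j, by ring⟩
  obtain ⟨j, rfl, hj⟩ := rep a ha ha0
  obtain ⟨i, rfl, hi⟩ := rep b hb hb0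
  obtain ⟨u, hu⟩ := ZMod.unitsMap_surjective (dvd_mul_right p q)
    (Units.mk0 ((i : ZMod p) / j) (div_ne_zero hi hj))
  refine ⟨(u : ZMod (p * q)).val, ZMod.val_coe_unit_coprime u, ?_⟩
  rw [nsmul_eq_mul, ← Nat.cast_mul, ← mul_assoc, ZMod.natCast_eq_natCast_iff]
  refine Nat.ModEq.mul_right' q ?_
  rw [← ZMod.natCast_eq_natCast_iff]
  have h1 : (((u : ZMod (p * q)).val : ℕ) : ZMod p) = (i : ZMod p) / j := by
    rw [ZMod.natCast_val, ← Units.val_mk0 (div_ne_zero hi hj), ← hu]
    rfl
  push_cast
  rw [h1, div_mul_cancel₀ _ hj]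

variable {G : Subgroup (Equiv.Perm (ZMod n))} [IsPreprimitive G (ZMod n)]

/-- Invariant sets avoiding `0` are unions of cosets of the torsion away from it. -/
theorem torsion_add_mem (hp : p.Prime) (hpn : p ∣ n) {X : ZMod n → Prop} (hX : SInv G X)
    {x : ZMod n} (hx : X x) (hpx : p • x ≠ 0) {h : ZMod n} (hh : p • h = 0) : X (x + h) := by
  classical
  have := Fact.mk hp
  set T : ZMod n → Prop := fun z =>
    (∑ y, if p • y = z then (if X y then (1 : ZMod p) else 0) else 0) ≠ 0 with hT
  have hTinv : SInv G T :=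
    ((hX.comp fun P => if P then (1 : ZMod p) else 0).frobenius p).comp fun c => c ≠ 0
  have hle : AddSubgroup.closure {z | T z} ≤ (nsmulAddMonoidHom (α := ZMod n) p).range := by
    refine (AddSubgroup.closure_le _).2 fun z hz => ?_
    by_contra hne
    refine hz (sum_eq_zero fun y _ => if_neg fun e => hne ⟨y, e⟩)
  have hbot : AddSubgroup.closure {z | T z} = ⊥ := by
    refine (invariant_subgroup_trivial hTinv.closure).resolve_right fun htop => ?_
    obtain ⟨y, hy : p • y = 1⟩ := hle (htop ▸ AddSubgroup.mem_top (1 : ZMod n))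
    have h1 := congrArg (ZMod.castHom hpn (ZMod p)) hy
    rw [map_nsmul, map_one, nsmul_eq_mul, ZMod.natCast_self, zero_mul] at h1
    exact zero_ne_one h1
  have hzero : ¬ T (p • x) := fun h => hpx (by
    simpa [hbot] using AddSubgroup.subset_closure (k := {z | T z}) h)
  simp only [hT, not_not, ← ite_and, sum_boole] at hzero
  rw [ZMod.natCast_eq_zero_iff] at hzero
  set C : Finset (ZMod n) := {y | p • y = p • x ∧ X y}
  have hsub : C ⊆ ({y | p • y = p • x} : Finset (ZMod n)) := fun y hy => by
    simp only [C, mem_filter, mem_univ, true_and] at hy ⊢; exact hy.1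
  have hfib : #({y | p • y = p • x} : Finset (ZMod n)) = p := by
    conv_rhs => rw [← card_torsion (n := n) hp hpn]
    refine card_nbij' (fun y => y - x) (fun y => y + x) ?_ ?_ ?_ ?_
    · intro y hy
      rw [mem_coe, mem_filter] at hy ⊢
      exact ⟨mem_univ _, by rw [nsmul_sub, hy.2, sub_self]⟩
    · intro y hy
      rw [mem_coe, mem_filter] at hy ⊢
      exact ⟨mem_univ _, by rw [nsmul_add, hy.2, zero_add]⟩
    · intro y _
      exact sub_add_cancel y x
    · intro y _
      exact add_sub_cancel_right y x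
  have hpos : 0 < #C := card_pos.2 ⟨x, by simp [C, hx]⟩
  have hC := eq_of_subset_of_card_le hsub (hfib.trans_le (Nat.le_of_dvd hpos hzero))
  have : x + h ∈ C := hC.ge (mem_filter.2 ⟨mem_univ _, by rw [nsmul_add, hh, add_zero]⟩)
  simp only [C, mem_filter, mem_univ, true_and] at this
  exact this.2

/-- Every nonempty invariant set avoiding `0` contains an element of order `p`. -/
theorem exists_torsion_mem (hp : p.Prime) (hpn : p ∣ n) {X : ZMod n → Prop} (hX : SInv G X)
    (h0 : ¬ X 0) {x : ZMod n} (hx : X x) : ∃ h, p • h = 0 ∧ X h := by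
  by_contra hno
  push Not at hno
  let U : AddSubgroup (ZMod n) :=
    { carrier := {h | ∀ k : ℕ, ∀ y, X y → X (y - k • h)}
      zero_mem' := fun k y hy => by simpa using hy
      add_mem' := fun {a b} ha hb k y hy => by
        simpa [smul_add, sub_sub] using hb k _ (ha k y hy)
      neg_mem' := fun {a} ha k y hy => by
        have h := ha (k * (n - 1)) y hy
        rwa [nsmul_eq_mul, Nat.cast_mul, Nat.cast_sub (NeZero.one_le (n := n)), ZMod.natCast_self,
          zero_sub, Nat.cast_one, mul_assoc, neg_one_mul, ← nsmul_eq_mul] at h }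
  have hU : SInv G fun h => h ∈ U := by
    have e : (fun h => h ∈ U) = fun h => ∀ y, X y → X (y - h) := by
      funext h
      refine propext ⟨fun hh y hy => by simpa using hh 1 y hy, fun hh k => ?_⟩
      induction k with
      | zero => intro y hy; simpa using hy
      | succ k ih =>
        intro y hy
        rw [succ_nsmul, ← sub_sub]
        exact hh _ (ih y hy)
    rw [e]
    exact hX.radical
  have htor : ∀ h : ZMod n, p • h = 0 → h ∈ U := fun h hh k y hy => by
    have := torsion_add_mem hp hpn hX hy (fun e => hno y e hy) (h := -(k • h))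
      (by rw [smul_neg, smul_comm, hh, smul_zero, neg_zero])
    rwa [← sub_eq_add_neg] at this
  obtain ⟨h, hh, hne⟩ : ∃ h : ZMod n, p • h = 0 ∧ h ≠ 0 := by
    obtain ⟨a, ha, b, hb, hab⟩ := one_lt_card.1 (hp.one_lt.trans_eq (card_torsion hp hpn).symm)
    simp only [mem_filter, mem_univ, true_and] at ha hb
    rcases eq_or_ne a 0 with rfl | h
    · exact ⟨b, hb, hab.symm⟩
    · exact ⟨a, ha, h⟩
  have htop := (invariant_subgroup_trivial hU).resolve_left fun e =>
    hne (by simpa [e] using htor h hh)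
  have := (htop ▸ AddSubgroup.mem_top x : x ∈ U) 1 x hx
  exact h0 (by simpa using this)

/-- The stabiliser of `0` is transitive on the other points. -/
theorem basicSet_eq_of_composite (hT : HasTranslations G) (hp : p.Prime) (hpn : p ∣ n)
    (hlt : p < n) {x y : ZMod n} (hx : x ≠ 0) (hy : y ≠ 0) : basicSet G x y := by
  classical
  set B : ZMod n → Finset (ZMod n) := fun h => {w | basicSet G h w} with hBdef
  set T : ZMod n → Finset (ZMod n) := fun h => {w | basicSet G h w ∧ p • w ≠ 0} with hTdef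
  have h0B : ∀ {h : ZMod n}, h ≠ 0 → ¬ basicSet G h 0 := fun {h} hh h' => by
    obtain ⟨g, -, h0, hg⟩ := h'
    exact hh (g.injective (hg.trans h0.symm))
  have hmeet : ∀ {z : ZMod n}, z ≠ 0 → ∃ h, p • h = 0 ∧ h ≠ 0 ∧ basicSet G z h := fun {z} hz => by
    obtain ⟨h, hh, hzh⟩ :=
      exists_torsion_mem hp hpn (sinv_basicSet hT z) (h0B hz) (mem_basicSet_self z)
    exact ⟨h, hh, fun e => h0B hz (e ▸ hzh), hzh⟩
  -- multipliers: sizes do not depend on the element of order `p`
  have hsize : ∀ a b : ZMod n, p • a = 0 → a ≠ 0 → p • b = 0 → b ≠ 0 →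
      #(B a) ≤ #(B b) ∧ #(T a) ≤ #(T b) ∧ #(B a \ T a) ≤ #(B b \ T b) := by
    intro a b ha ha0 hb hb0
    obtain ⟨k, hk, hkab⟩ := exists_coprime_nsmul hp hpn ha ha0 hb hb0
    have hk' : k.Coprime (Fintype.card (ZMod n)) := by rwa [ZMod.card]
    have hinj := (SInv.nsmul_bijective hk').1
    have hmap : ∀ w, basicSet G a w → basicSet G b (k • w) := fun w hw =>
      basicSet_le ((sinv_basicSet hT b).comp_nsmul hk')
        (show basicSet G b (k • a) by rw [hkab]; exact mem_basicSet_self b) hw
    have htor : ∀ w : ZMod n, p • k • w = 0 ↔ p • w = 0 := fun w => by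
      rw [smul_comm]
      exact ⟨fun e => hinj (e.trans (smul_zero k).symm), fun e => by rw [e, smul_zero]⟩
    refine ⟨card_le_card_of_injOn _ ?_ hinj.injOn, card_le_card_of_injOn _ ?_ hinj.injOn,
      card_le_card_of_injOn _ ?_ hinj.injOn⟩
    · intro w hw
      simp only [hBdef, mem_coe, mem_filter, mem_univ, true_and] at hw ⊢
      exact hmap w hw
    · intro w hw
      simp only [hTdef, mem_coe, mem_filter, mem_univ, true_and] at hw ⊢
      exact ⟨hmap w hw.1, fun e => hw.2 ((htor w).1 e)⟩
    · intro w hw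
      simp only [hBdef, hTdef, mem_coe, mem_filter, mem_univ, true_and, mem_sdiff, not_and,
        not_not] at hw ⊢
      exact ⟨hmap w hw.1, fun _ => (htor w).2 (hw.2 hw.1)⟩
  obtain ⟨a, ha, ha0, hxa⟩ := hmeet hx
  suffices hall : ∀ b : ZMod n, p • b = 0 → b ≠ 0 → basicSet G a b by
    obtain ⟨b, hb, hb0, hyb⟩ := hmeet hy
    exact basicSet_trans (basicSet_trans hxa (hall b hb hb0)) (basicSet_symm hyb)
  intro b hb hb0
  by_contra hab
  -- two basic sets are disjoint
  have hdisj : Disjoint (B a) (B b) := disjoint_left.2 fun w hw hw' => by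
    simp only [hBdef, mem_filter, mem_univ, true_and] at hw hw'
    exact hab (basicSet_trans hw (basicSet_symm hw'))
  have hB2 : 2 * #(B a) + 1 ≤ n := by
    have h1 := card_le_card (s := B a ∪ B b) (t := univ.erase 0) fun w hw => by
      simp only [hBdef, mem_union, mem_filter, mem_univ, true_and] at hw
      rcases hw with hw | hw <;> refine mem_erase.2 ⟨fun e => ?_, mem_univ _⟩
      exacts [h0B ha0 (e ▸ hw), h0B hb0 (e ▸ hw)]
    rw [card_union_of_disjoint hdisj, card_erase_of_mem (mem_univ _), card_univ, ZMod.card] at h1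
    have := (hsize a b ha ha0 hb hb0).1
    have := NeZero.pos n
    omega
  have hT2 : 2 * #(B a \ T a) + 1 ≤ p := by
    have h1 := card_le_card (s := (B a \ T a) ∪ (B b \ T b))
      (t := ({w | p • w = 0} : Finset (ZMod n)).erase 0) fun w hw => by
      simp only [hBdef, hTdef, mem_union, mem_sdiff, mem_filter, mem_univ, true_and, not_and,
        not_not] at hw
      rcases hw with ⟨hw, hw'⟩ | ⟨hw, hw'⟩ <;>
        refine mem_erase.2 ⟨fun e => ?_, mem_filter.2 ⟨mem_univ _, hw' hw⟩⟩
      exacts [h0B ha0 (e ▸ hw), h0B hb0 (e ▸ hw)]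
    rw [card_union_of_disjoint (hdisj.mono sdiff_subset sdiff_subset),
      card_erase_of_mem (by simp), card_torsion hp hpn] at h1
    have := (hsize a b ha ha0 hb hb0).2.2
    have := hp.one_lt
    omega
  have hTp : p ≤ #(T a) := by
    have h1n : p • (1 : ZMod n) ≠ 0 := fun e => by
      rw [nsmul_eq_mul, mul_one, ZMod.natCast_eq_zero_iff] at e
      exact absurd (Nat.le_of_dvd hp.pos e) (not_le.2 hlt)
    obtain ⟨h, hh, hh0, h1h⟩ := hmeet (z := (1 : ZMod n)) fun e => h1n (by rw [e, smul_zero])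
    refine le_trans ?_ (hsize h a hh hh0 ha ha0).2.1
    rw [← card_torsion (n := n) hp hpn]
    refine card_le_card_of_injOn (fun w => 1 + w) ?_ (add_right_injective _).injOn
    intro w hw
    simp only [mem_coe, mem_filter, mem_univ, true_and, hTdef] at hw ⊢
    exact ⟨torsion_add_mem hp hpn (sinv_basicSet hT h) (basicSet_symm h1h) h1n hw,
      by rwa [smul_add, hw, add_zero]⟩
  -- autocorrelation of `B a`
  set c : ZMod n → ℕ := fun h => #({w | basicSet G a w ∧ basicSet G a (w - h)} : Finset (ZMod n))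
  have hc : ∀ z, z ≠ 0 → #(T a) ≤ c z := fun z hz => by
    obtain ⟨h, hh, -, hzh⟩ := hmeet hz
    obtain ⟨g, hg, hg0, rfl⟩ := hzh
    have e := (sinv_basicSet hT a).corr.apply_eq hg hg0 z
    simp only [c]
    rw [← e]
    refine card_le_card fun w hw => ?_
    simp only [hTdef, mem_filter, mem_univ, true_and] at hw ⊢
    refine ⟨hw.1, ?_⟩
    rw [sub_eq_add_neg]
    exact torsion_add_mem hp hpn (sinv_basicSet hT a) hw.1 hw.2 (by rw [smul_neg, hh, neg_zero])
  have hsum : ∑ z, c z = #(B a) * #(B a) := by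
    simp only [c, hBdef, card_filter, ite_and]
    rw [sum_comm, sum_mul]
    refine sum_congr rfl fun w _ => ?_
    split_ifs with hw
    · rw [one_mul]
      exact Equiv.sum_comp (Equiv.subLeft w) (fun u => if basicSet G a u then 1 else 0)
    · simp
  have hbig : (n - 1) * #(T a) ≤ #(B a) * #(B a) := by
    rw [← hsum]
    refine le_trans ?_ (sum_le_sum_of_subset (erase_subset 0 univ))
    refine le_trans (le_of_eq ?_)
      (card_nsmul_le_sum _ c (#(T a)) fun z hz => hc z (mem_erase.1 hz).1)
    rw [card_erase_of_mem (mem_univ _), card_univ, ZMod.card, smul_eq_mul]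
  have hsub : T a ⊆ B a := fun w hw => by
    simp only [hBdef, hTdef, mem_filter, mem_univ, true_and] at hw ⊢
    exact hw.1
  rw [card_sdiff_of_subset hsub] at hT2
  have h2 : 2 * (#(B a) * #(B a)) ≤ (n - 1) * #(B a) := by
    rw [← mul_assoc]
    exact Nat.mul_le_mul_right _ (by omega)
  have h3 : (n - 1) * (2 * #(T a)) ≤ (n - 1) * #(B a) := by
    rw [mul_left_comm]; exact (Nat.mul_le_mul_left 2 hbig).trans h2
  have h4 := Nat.le_of_mul_le_mul_left h3 (by have := hp.one_lt; omega)
  omega

/-- **Schur's theorem** on `ZMod n`. -/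
theorem schur_zmod (hT : HasTranslations G) (hn : 1 < n) (hc : ¬ n.Prime) :
    IsMultiplyPretransitive G (ZMod n) 2 := by
  obtain ⟨p, hp, hpn⟩ := Nat.exists_prime_and_dvd (show n ≠ 1 by omega)
  have hlt : p < n := lt_of_le_of_ne (Nat.le_of_dvd (by omega) hpn) fun e => hc (e ▸ hp)
  refine is_two_pretransitive_iff.2 fun {a b c d} hab hcd => ?_
  obtain ⟨g, hg, hg0, hgx⟩ := basicSet_eq_of_composite hT hp hpn hlt
    (sub_ne_zero.2 hab.symm) (sub_ne_zero.2 hcd.symm)
  refine ⟨⟨Equiv.addRight c * g * Equiv.addRight (-a),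
    G.mul_mem (G.mul_mem (hT c) hg) (hT _)⟩, ?_, ?_⟩
  · simp [Subgroup.mk_smul, hg0]
  · simp [Subgroup.mk_smul, ← sub_eq_add_neg, hgx]

end Vale.Agent.P329.Groups
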