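import Mathlib

/-!
P329, group facts: Tijdeman's replacement theorem for tilings of a finite abelian group by two
families, with consequences for tile families `L ↦ (i ↦ β (c i + L))`.
-/

namespace Vale.Agent.P329.Groups

open Finset Function

variable {A : Type*} [AddCommGroup A] [Fintype A] {ι κ : Type*}

/-- The two families tile the group. -/
def IsTiling (f : ι → A) (g : κ → A) : Prop := Bijective fun q : ι × κ => f q.1 + g q.2

omit [Fintype A] in
theorem IsTiling.symm {f : ι → A} {g : κ → A} (h : IsTiling f g) : IsTiling g f := by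
  have e : (fun q : κ × ι => g q.1 + f q.2) = (fun q : ι × κ => f q.1 + g q.2) ∘ Prod.swap :=
    funext fun q => add_comm _ _
  show Bijective fun q : κ × ι => g q.1 + f q.2
  rw [e]
  exact h.comp Prod.swap_bijective

variable [Fintype ι] [Fintype κ]

theorem IsTiling.card_mul {f : ι → A} {g : κ → A} (h : IsTiling f g) :
    Fintype.card ι * Fintype.card κ = Fintype.card A := by
  rw [← Fintype.card_prod]
  exact Fintype.card_of_bijective h

/-- The prime step of Tijdeman's theorem. -/
theorem IsTiling.prime_nsmul {p : ℕ} (hp : p.Prime) {f : ι → A} {g : κ → A} (h : IsTiling f g)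
    (hk : ¬ p ∣ Fintype.card ι) : IsTiling (fun i => p • f i) g := by
  classical
  have := Fact.mk hp
  have : CharP (AddMonoidAlgebra (ZMod p) A) p :=
    charP_of_injective_algebraMap' (ZMod p) p
  let U : AddMonoidAlgebra (ZMod p) A := ∑ z, AddMonoidAlgebra.single z 1
  set F : AddMonoidAlgebra (ZMod p) A := ∑ i, AddMonoidAlgebra.single (f i) 1 with hF
  set H : AddMonoidAlgebra (ZMod p) A := ∑ j, AddMonoidAlgebra.single (g j) 1 with hH
  have hFH : F * H = U := by
    rw [hF, hH, sum_mul_sum, ← Fintype.sum_prod_type']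
    simp only [AddMonoidAlgebra.single_mul_single, mul_one]
    exact Fintype.sum_bijective _ h _ _ fun _ => rfl
  have hFU : F * U = (Fintype.card ι : ZMod p) • U := by
    rw [hF, sum_mul]
    have : ∀ i, AddMonoidAlgebra.single (f i) (1 : ZMod p) * U = U := fun i => by
      simp only [U, mul_sum, AddMonoidAlgebra.single_mul_single, mul_one]
      exact Equiv.sum_comp (Equiv.addLeft (f i)) (fun z => AddMonoidAlgebra.single z (1 : ZMod p))
    simp [this, Nat.cast_smul_eq_nsmul]
  have hpow : ∀ k : ℕ, F ^ k * U = (Fintype.card ι : ZMod p) ^ k • U := by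
    intro k
    induction k with
    | zero => simp
    | succ k ih => rw [pow_succ, mul_assoc, hFU, mul_smul_comm, ih, smul_smul, ← pow_succ']
  have hm : (Fintype.card ι : ZMod p) ≠ 0 := by rwa [Ne, ZMod.natCast_eq_zero_iff]
  have hmain : F ^ p * H = U := by
    rw [← pow_sub_one_mul hp.ne_zero F, mul_assoc, hFH]
    rw [hpow, ZMod.pow_card_sub_one_eq_one hm, one_smul]
  have hexp : F ^ p * H = ∑ q : ι × κ, AddMonoidAlgebra.single (p • f q.1 + g q.2) 1 := by
    rw [hF, sum_pow_char, hH, sum_mul_sum, ← Fintype.sum_prod_type']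
    simp [AddMonoidAlgebra.single_pow, AddMonoidAlgebra.single_mul_single]
  refine (Fintype.bijective_iff_surjective_and_card _).2
    ⟨fun z => ?_, (Fintype.card_prod ι κ).trans h.card_mul⟩
  by_contra hz
  push Not at hz
  have hc := congrArg (fun F : AddMonoidAlgebra (ZMod p) A => F.coeff z) (hexp.symm.trans hmain)
  simp only [U, AddMonoidAlgebra.coeff_sum, Finsupp.coe_finsetSum, Finset.sum_apply] at hc
  rw [sum_eq_zero fun q _ => by simp [Ne.symm (hz q)]] at hc
  simp [Finsupp.single_apply] at hc

/-- **Tijdeman's theorem.** A multiplier prime to the size of one family keeps a tiling. -/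
theorem IsTiling.nsmul {k : ℕ} {f : ι → A} {g : κ → A} (h : IsTiling f g)
    (hk : k.Coprime (Fintype.card ι)) : IsTiling (fun i => k • f i) g := by
  induction k using Nat.recOnMul generalizing f with
  | zero =>
    have h1 : Fintype.card ι = 1 := by simpa [Nat.coprime_zero_left] using hk
    obtain ⟨i₀, hi₀⟩ := Fintype.card_eq_one_iff.1 h1
    refine (Fintype.bijective_iff_surjective_and_card _).2
      ⟨fun z => ?_, (Fintype.card_prod ι κ).trans h.card_mul⟩
    obtain ⟨⟨i, j⟩, hij⟩ := h.2 (z + f i₀)
    refine ⟨(i₀, j), ?_⟩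
    simp only [hi₀ i] at hij
    simp only [zero_smul, zero_add]
    exact add_left_cancel (hij.trans (add_comm z (f i₀)))
  | one => simpa using h
  | prime p hp => exact h.prime_nsmul hp ((hp.coprime_iff_not_dvd).1 hk)
  | mul a b iha ihb =>
    rw [Nat.coprime_mul_iff_left] at hk
    have := ihb (iha h hk.1) hk.2
    simpa [mul_nsmul] using this

/-- Multiplied differences of the first family are not differences of the second. -/
theorem IsTiling.nsmul_sub_ne {k : ℕ} {f : ι → A} {g : κ → A} (h : IsTiling f g)
    (hk : k.Coprime (Fintype.card ι)) {i i' : ι} (hi : i ≠ i') (j j' : κ) :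
    k • (f i - f i') ≠ g j - g j' := by
  intro e
  rw [nsmul_sub, sub_eq_sub_iff_add_eq_add] at e
  exact hi (congrArg Prod.fst ((h.nsmul hk).1
    (show k • f i + g j' = k • f i' + g j from e.trans (add_comm _ _)) : (i, j') = (i', j)))

section Cyclic

variable {n : ℕ} [NeZero n] {f : ι → ZMod n} {g : κ → ZMod n}

/-- Two elements of `ZMod n` of the same order differ by a multiplier prime to `n`. -/
theorem exists_coprime_nsmul_of_addOrderOf_eq {a b : ZMod n}
    (h : addOrderOf a = addOrderOf b) : ∃ k : ℕ, k.Coprime n ∧ k • a = b := by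
  classical
  have hpos := addOrderOf_pos a
  have hsub : (Finset.range (addOrderOf a)).image (· • a) ⊆
      ({x | addOrderOf a • x = 0} : Finset (ZMod n)) := fun x hx => by
    obtain ⟨l, -, rfl⟩ := mem_image.1 hx
    exact mem_filter.2 ⟨mem_univ _, by rw [smul_comm, addOrderOf_nsmul_eq_zero, smul_zero]⟩
  have hcard : #((Finset.range (addOrderOf a)).image (· • a)) = addOrderOf a := by
    rw [card_image_of_injOn, card_range]
    intro x hx y hy e
    exact nsmul_injOn_Iio_addOrderOf (Finset.mem_range.1 hx) (Finset.mem_range.1 hy) e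
  have heq := eq_of_subset_of_card_le hsub
    ((IsAddCyclic.card_nsmul_eq_zero_le hpos).trans hcard.ge)
  obtain ⟨l, -, rfl⟩ : ∃ l ∈ Finset.range (addOrderOf a), l • a = b :=
    mem_image.1 (heq.ge (mem_filter.2 ⟨mem_univ b, by rw [h]; exact addOrderOf_nsmul_eq_zero b⟩))
  have hl : l.Coprime (addOrderOf a) := by
    have := addOrderOf_nsmul (x := a) (n := l)
    rw [← h] at this
    have hpos := addOrderOf_pos a
    exact Nat.Coprime.symm ((Nat.div_eq_self).1 this.symm |>.resolve_left hpos.ne')
  obtain ⟨u, hu⟩ := ZMod.unitsMap_surjective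
    (show addOrderOf a ∣ n by simpa [ZMod.card] using addOrderOf_dvd_card (x := a))
    (ZMod.unitOfCoprime l hl)
  refine ⟨(u : ZMod n).val, ZMod.val_coe_unit_coprime u, ?_⟩
  refine nsmul_eq_nsmul_iff_modEq.2 ?_
  rw [← ZMod.natCast_eq_natCast_iff, ← ZMod.coe_unitOfCoprime l hl, ← hu, ZMod.natCast_val]
  rfl

/-- In a cyclic group the two factors of a tiling have no common order of differences. In
particular for each prime `p` at most one factor has two elements differing by order `p`. -/
theorem IsTiling.addOrderOf_sub_ne (h : IsTiling f g) {i i' : ι} (hi : i ≠ i') (j j' : κ) :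
    addOrderOf (f i - f i') ≠ addOrderOf (g j - g j') := by
  intro e
  obtain ⟨k, hk, hkab⟩ := exists_coprime_nsmul_of_addOrderOf_eq e
  refine h.nsmul_sub_ne (hk.coprime_dvd_right ?_) hi j j' hkab
  rw [← ZMod.card n, ← h.card_mul]
  exact dvd_mul_right _ _

/-- **Lowest-level dichotomy.** For each prime `p`, one of the factors has no two elements
differing by an element of order `p`. -/
theorem IsTiling.prime_dichotomy (h : IsTiling f g) {p : ℕ} (hp : p.Prime) :
    (∀ i i', p • (f i - f i') = 0 → i = i') ∨ ∀ j j', p • (g j - g j') = 0 → j = j' := by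
  by_contra hc
  push Not at hc
  obtain ⟨⟨i, i', hif, hi⟩, j, j', hjg, hj⟩ := hc
  have := Fact.mk hp
  refine h.addOrderOf_sub_ne hi j j' ?_
  rw [addOrderOf_eq_prime hif fun e => hi ?_, addOrderOf_eq_prime hjg fun e => hj ?_]
  · exact congrArg Prod.snd (h.1 (show f i + g j = f i + g j' by rw [sub_eq_zero.1 e]) :
      (i, j) = (i, j'))
  · exact congrArg Prod.fst (h.1 (show f i + g j = f i' + g j by rw [sub_eq_zero.1 e]) :
      (i, j) = (i', j))

/-- If the sizes of the factors are coprime, each is a complete set of residues. -/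
theorem IsTiling.complete_residues (h : IsTiling f g)
    (hco : (Fintype.card ι).Coprime (Fintype.card κ)) :
    Bijective fun i => ((f i).val : ZMod (Fintype.card ι)) := by
  set m := Fintype.card ι
  have hn : m * Fintype.card κ = n := h.card_mul.trans (ZMod.card n)
  have : NeZero m := ⟨fun e => NeZero.ne n (by rw [← hn, e, zero_mul])⟩
  refine (Fintype.bijective_iff_injective_and_card _).2 ⟨fun i i' e => ?_, (ZMod.card m).symm⟩
  by_contra hi
  have : Nonempty κ := Fintype.card_pos_iff.1 (Nat.pos_of_ne_zero fun e' =>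
    NeZero.ne n (by rw [← hn, e', mul_zero]))
  obtain ⟨j⟩ := this
  refine h.nsmul_sub_ne hco.symm hi j j ?_
  rw [sub_self, nsmul_sub, sub_eq_zero]
  rw [ZMod.natCast_eq_natCast_iff] at e
  rw [← ZMod.natCast_zmod_val (f i), ← ZMod.natCast_zmod_val (f i'), nsmul_eq_mul, nsmul_eq_mul,
    ← Nat.cast_mul, ← Nat.cast_mul, ZMod.natCast_eq_natCast_iff]
  have := e.mul_left' (Fintype.card κ)
  rwa [mul_comm _ m, hn] at this

end Cyclic

section Family

variable {O : Type*} {β : A → O} {c : ι → A}

omit [Fintype A] [Fintype ι] in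
/-- A tile family gives, for each colour, a tiling by `-c` and the fibre. -/
theorem isTiling_fiber (h : ∀ L, Bijective fun i => β (c i + L)) (y : O) :
    IsTiling (fun i => -c i) (fun z : {z // β z = y} => (z : A)) := by
  constructor
  · rintro ⟨i, z, hz⟩ ⟨i', z', hz'⟩ e
    simp only [Prod.mk.injEq, Subtype.mk.injEq] at e ⊢
    have hi : i = i' := (h (-c i + z)).1 (by
      show β (c i + (-c i + z)) = β (c i' + (-c i + z))
      rw [add_neg_cancel_left, e, add_neg_cancel_left, hz, hz'])
    subst hi
    exact ⟨rfl, add_left_cancel e⟩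
  · intro L
    obtain ⟨i, hi⟩ := (h L).2 y
    exact ⟨(i, ⟨c i + L, hi⟩), neg_add_cancel_left _ _⟩

/-- **Tijdeman for tile families.** Multipliers prime to the size of the tile preserve them. -/
theorem tileFamily_nsmul [DecidableEq O] (h : ∀ L, Bijective fun i => β (c i + L)) {k : ℕ}
    (hk : k.Coprime (Fintype.card ι)) (L : A) : Bijective fun i => β (k • c i + L) := by
  have : Fintype O := Fintype.ofBijective _ (h L)
  refine (Fintype.bijective_iff_surjective_and_card _).2
    ⟨fun y => ?_, Fintype.card_of_bijective (h L)⟩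
  obtain ⟨⟨i, z, hz⟩, hiz⟩ := ((isTiling_fiber h y).nsmul hk).2 L
  refine ⟨i, ?_⟩
  rw [← hz, ← hiz]
  simp

/-- Lowest-level dichotomy for tile families in a cyclic group: no difference of the tile has the
order of a difference of two equally coloured points. -/
theorem tileFamily_addOrderOf_sub_ne {n : ℕ} [NeZero n] [DecidableEq O] {β : ZMod n → O}
    {c : ι → ZMod n} (h : ∀ L, Bijective fun i => β (c i + L)) {i i' : ι} (hi : i ≠ i')
    {z z' : ZMod n} (hz : β z = β z') : addOrderOf (c i - c i') ≠ addOrderOf (z - z') := by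
  have := (isTiling_fiber h (β z')).addOrderOf_sub_ne hi.symm ⟨z, hz⟩ ⟨z', rfl⟩
  simpa [sub_eq_add_neg, add_comm] using this

end Family

end Vale.Agent.P329.Groups
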