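import Vale.Agent.P329.Groups.Schur

/-!
P329, group facts: Schur's theorem for a group on an arbitrary finite set that contains a regular
cyclic subgroup.
-/

namespace Vale.Agent.P329.Groups

open MulAction Function

variable {α : Type*}

/-- A transitive permutation gives coordinates in `ZMod` in which it is `x ↦ x + 1`. -/
theorem exists_zmod_coords [Finite α] {c : Equiv.Perm α} (x₀ : α)
    (hcyc : ∀ x, ∃ k : ℤ, (c ^ k) x₀ = x) :
    ∃ e : ZMod (Nat.card α) ≃ α, ∀ z, e (z + 1) = c (e z) := by
  set m := minimalPeriod (c • ·) x₀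
  let e : ZMod m ≃ α := (orbitZPowersEquiv c x₀).symm.trans (Equiv.subtypeUnivEquiv fun x => by
    obtain ⟨k, hk⟩ := hcyc x
    exact ⟨⟨c ^ k, k, rfl⟩, hk⟩)
  have hm : Nat.card α = m := by rw [← Nat.card_congr e, Nat.card_zmod]
  rw [hm]
  refine ⟨e, fun z => ?_⟩
  obtain ⟨k, rfl⟩ := ZMod.intCast_surjective z
  have happ : ∀ k : ℤ, e (k : ZMod m) = (c ^ k) x₀ := fun k => by
    show ((orbitZPowersEquiv c x₀).symm (k : ZMod m) : α) = _
    rw [orbitZPowersEquiv_symm_apply']
    rfl
  rw [← Int.cast_one, ← Int.cast_add, happ, happ, zpow_add_one]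
  rw [(Commute.zpow_self c k).eq, Equiv.Perm.mul_apply]

/-- **Schur's theorem.** A primitive group of composite degree containing a regular cyclic
subgroup is 2-transitive. -/
theorem schur [Finite α] {G : Subgroup (Equiv.Perm α)} [IsPreprimitive G α] {c : Equiv.Perm α}
    (hc : c ∈ G) (hcyc : ∀ x y : α, ∃ k : ℤ, (c ^ k) x = y) (hn : ¬ (Nat.card α).Prime) :
    IsMultiplyPretransitive G α 2 := by
  refine is_two_pretransitive_iff.2 fun {a b a' b'} hab hab' => ?_
  have h1 : 1 < Nat.card α := by
    have : Nontrivial α := ⟨a, b, hab⟩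
    exact Finite.one_lt_card
  have : NeZero (Nat.card α) := ⟨by omega⟩
  obtain ⟨e, he⟩ := exists_zmod_coords a fun x => hcyc a x
  set G' := G.map e.symm.permCongrHom.toMonoidHom
  let φ : G → G' := fun g => ⟨e.symm.permCongrHom g, g, g.2, rfl⟩
  let f : α →ₑ[φ] ZMod (Nat.card α) :=
    { toFun := e.symm
      map_smul' := fun g x => by simp [φ, Subgroup.smul_def, Equiv.Perm.smul_def] }
  have : IsPreprimitive G' (ZMod (Nat.card α)) :=
    IsPreprimitive.of_surjective (f := f) e.symm.surjective
  have hone : Equiv.addRight (1 : ZMod (Nat.card α)) ∈ G' := by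
    refine ⟨c, hc, Equiv.ext fun z => ?_⟩
    simp [← he]
  have hT : HasTranslations G' := fun x => by
    have := G'.pow_mem hone x.val
    convert this using 1
    ext z
    simp
  have := schur_zmod hT h1 hn
  obtain ⟨⟨_, g, hg, rfl⟩, hga, hgb⟩ := is_two_pretransitive_iff.1 this
    (e.symm.injective.ne hab) (e.symm.injective.ne hab')
  refine ⟨⟨g, hg⟩, ?_, ?_⟩
  · simpa [Subgroup.smul_def] using hga
  · simpa [Subgroup.smul_def] using hgb

end Vale.Agent.P329.Groups
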